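import Crest.Agent.X212.Nr4.Main
import Crest.Agent.X212.Dr59.NbT

/-!
# Row 212, NORED (helper4): the test line of a circle valued map
-/

set_option autoImplicit false
set_option linter.unusedSectionVars false
noncomputable section
open scoped Manifold ContDiff Topology Real
open Function Filter Set
open Crest.Agent.R208.F (Ext)

namespace Crest.Agent.X212.Nr4
open Loc8 Line51 Cyf70 Nd18 Int54
open Dr59 (ip df dM Cl Cs)

variable {E : Type} [NormedAddCommGroup E] [NormedSpace ℝ E] [FiniteDimensional ℝ E]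
  [MeasurableSpace E] [BorelSpace E]
  {HM : Type} [TopologicalSpace HM] {I : ModelWithCorners ℝ E HM} [I.Boundaryless]
  {Y : Type} [TopologicalSpace Y] [ChartedSpace HM Y] [IsManifold I ∞ Y] [T2Space Y]
  [MeasurableSpace Y] [BorelSpace Y] [SecondCountableTopology Y]

theorem rl_ang' {K V : Set Y} (hV : IsOpen V) (hK : IsCompact K) (hs : K ⊆ V) {θ : Y → Circle} {χ : Y → ℝ}
    (hθ : ∀ x, CSm I θ x) (hχ : ∀ x, ContMDiffAt I 𝓘(ℝ, ℝ) ∞ χ x)
    (h : ∀ x, x ∉ K → χ =ᶠ[𝓝 x] 0 ∨ χ =ᶠ[𝓝 x] 1 ∨ θ =ᶠ[𝓝 x] 1) :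
    ∃ K', IsCompact K' ∧ K' ⊆ V ∧ RL I K' (df I χ * ang I θ) := by
  classical
  have c := cl_ang (U := V) fun x _ => hθ x
  have s1 : Dr59.Sm I V (χ • ang I θ) := fun x hx => (c.sm x hx).fsmul le_rfl (hχ x)
  have d1 : Dr59.Dg 1 V (χ • ang I θ) := fun x hx => (c.dg x hx).smul _
  have k0 : ∀ x, θ =ᶠ[𝓝 x] 1 → (fun x => if χ x = 0 then 1 else (θ x)⁻¹) =ᶠ[𝓝 x] 1 := fun x k =>
    k.mono fun y hy => by simp [hy]
  refine (rl_of_par hV hK hs (on_triv s1 d1) (s := Line51.sc fun x => if χ x = 0 then 1 else (θ x)⁻¹)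
    (iso_sc (fun x hx => ?_) fun x hx => ?_)).imp fun K' k => ⟨k.1, k.2.1, ?_⟩
  · rcases h x hx.2 with k | k | k
    · exact contMDiffAt_const.congr_of_eventuallyEq (k.mono fun y hy => if_pos hy)
    · exact (hθ x).inv.congr_of_eventuallyEq (k.mono fun y hy => if_neg (by simp [hy]))
    · exact contMDiffAt_const.congr_of_eventuallyEq (k0 x k)
  · rcases h x hx.2 with k | k | k
    · rw [ang_congr (g := fun x => if χ x = 0 then 1 else (θ x)⁻¹) (h := 1)
        (k.mono fun y hy => if_pos hy)]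
      simp [k.eq_of_nhds]
    · rw [ang_congr (g := fun x => if χ x = 0 then 1 else (θ x)⁻¹) (h := θ⁻¹)
        (k.mono fun y hy => if_neg (by simp [hy])), ang_inv (hθ x)]
      simp [k.eq_of_nhds]
    · simp [ang_congr (k0 x k), ang_congr k]
  · convert k.2.2 using 1
    funext x
    by_cases hx : x ∈ V
    · rw [indicator_of_mem hx, F_triv hV s1 d1 hx, Dr59.dM_fsmul Dr59.ne0
        ((hχ x).mdifferentiableAt Dr59.ne0) (c.sm x hx), c.cl x hx, smul_zero, add_zero, Pi.mul_apply]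
    · rw [indicator_of_notMem hx, Pi.mul_apply]
      rcases h x fun k => hx (hs k) with k | k | k
      exacts [by rw [Dr59.df_eq_zero k, zero_mul], by rw [Dr59.df_eq_zero k, zero_mul],
        by rw [ang_congr k, ang_one, Pi.zero_apply, mul_zero]]

variable [CompactSpace Y] {θ : Y → Circle}

/-- a circle valued map can be made constant near a fibre -/
theorem exists_flat (hθ : ∀ y, CSm I θ y) : ∃ g : Y → ℝ, (∀ y, ContMDiffAt I 𝓘(ℝ, ℝ) ∞ g y) ∧
    ∀ y, θ y = 1 → (θ * fun y => Circle.exp (g y)) =ᶠ[𝓝 y] 1 := by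
  have c : Continuous θ := continuous_iff_continuousAt.2 fun y => (hθ y).continuousAt
  obtain ⟨ψ, p1, -, p3, p4⟩ := exists_bump (I := I) (isClosed_eq c continuous_const (g := fun _ => 1)).isCompact
    (isOpen_ne_fun c continuous_const (g := fun _ => -1)) fun y (h : θ y = 1) (k : θ y = -1) => by
      have := congrArg (fun u : Circle => (u : ℂ)) (h.symm.trans k)
      norm_num at this
  refine ⟨fun y => -(ψ y * Complex.arg (θ y)), fun y => .neg ?_, fun y h => (p4 y h).mono fun z hz => by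
    simp [hz, Circle.exp_neg, Circle.exp_arg]⟩
  by_cases h : y ∈ tsupport ψ
  · have m : (θ y : ℂ) ∈ Complex.slitPlane := Complex.mem_slitPlane_iff_arg.2 ⟨fun k => p3 h (by
      rw [← Circle.exp_arg (θ y), k]; ext; simp), Circle.coe_ne_zero _⟩
    exact (p1 y).mul (((Complex.imCLM.contDiff.contDiffAt.comp _ ((Complex.contDiffAt_log (n := ∞)
      m).restrict_scalars ℝ)).comp_contMDiffAt (f := fun y => (θ y : ℂ)) (Rod53.cm_coe (hθ y))).congr_of_eventuallyEq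
        (.of_forall fun w => (Complex.log_im (θ w)).symm))
  · exact (contMDiffAt_const (c := (0 : ℝ))).congr_of_eventuallyEq ((notMem_tsupport_iff_eventuallyEq.1 h).mono fun z hz => by
      simp [hz])

variable [ConnectedSpace Y] {κ : Type} [Fintype κ] {lam : Type} [Fintype lam] {D : YD I Y κ lam}

/-- **NORED** from a fibre with an odd pairing -/
theorem nored_ang (hD : D.OK) (h3 : Module.finrank ℝ E = 3) {w w' O : Y × ℝ → Ext (E × ℝ)}
    (hw : Cl (IC I) 2 univ w) (hk : Idg99.fl D.B D.G = Num57.k2 D.Z w) (hθ : ∀ y, CSm I θ y)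
    (hT : Tv univ {y | θ y ≠ 1}) {χ : ℝ → ℝ} (hχ : ContDiff ℝ ∞ χ) (h0 : ∀ s ≤ -2, χ s = 0)
    (h1 : ∀ s, 2 ≤ s → χ s = 1) (hO : Ori (IC I) O) {n : ℤ} (hn : Odd n)
    (hw' : Dr59.Sm (IC I) univ w') (hx : Dr59.Ex (IC I) {x | |x.2| < 3} (w - w'))
    (e : ip (IC I) O w' (df (IC I) (χ ∘ Prod.snd) * ang (IC I) (θ ∘ Prod.fst)) = n * (2 * π) ^ 2) :
    D.NoRed := by
  obtain ⟨g, g1, g2⟩ := exists_flat hθ
  have c : Continuous θ := continuous_iff_continuousAt.2 fun y => (hθ y).continuousAt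
  have s1 : ∀ x : Y × ℝ, CSm (IC I) (θ ∘ Prod.fst) x := fun x => (hθ _).comp x contMDiffAt_fst
  have s2 : ∀ x : Y × ℝ, ContMDiffAt (IC I) 𝓘(ℝ, ℝ) ∞ (g ∘ Prod.fst) x := fun x => (g1 _).comp x contMDiffAt_fst
  have s3 : ∀ x : Y × ℝ, ContMDiffAt (IC I) 𝓘(ℝ, ℝ) ∞ (χ ∘ Prod.snd) x := fun x =>
    (hχ.contMDiff _).comp x contMDiffAt_snd
  have s4 := fun x => (contMDiff_circleExp _).comp x (s2 x)
  have z : ∀ x : Y × ℝ, x.2 ∉ Icc (-2 : ℝ) 2 → χ ∘ Prod.snd =ᶠ[𝓝 x] 0 ∨ χ ∘ Prod.snd =ᶠ[𝓝 x] 1 := fun x h =>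
    (not_and_or.1 h).imp (fun k => (continuousAt_snd.eventually_lt_const (not_le.1 k)).mono fun y l => h0 _ l.le)
      fun k => (continuousAt_snd.eventually_const_lt (not_le.1 k)).mono fun y l => h1 _ l.le
  have z' : ∀ x : Y × ℝ, x ∉ univ ×ˢ Icc (-2 : ℝ) 2 → df (IC I) (χ ∘ Prod.snd) x = 0 := fun x h =>
    (z x fun k => h ⟨trivial, k⟩).elim Dr59.df_eq_zero Dr59.df_eq_zero
  have o := isOpen_ne_fun c continuous_const (g := fun _ => 1)
  obtain ⟨K, k1, k2, k3⟩ := rl_ang' (o.prod (isOpen_Ioo (a := (-3 : ℝ)) (b := 3)))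
    (((isOpen_setOfPred_eventually_nhds (p := fun y => (θ * fun y => Circle.exp (g y)) y = (1 : Y → Circle) y)
      ).isClosed_compl.isCompact).prod (isCompact_Icc (a := (-2 : ℝ)) (b := 2)))
    (prod_mono (fun y h k => h (g2 y k)) (Icc_subset_Ioo (by norm_num) (by norm_num)))
    (fun x => (s1 x).mul (s4 x)) s3 fun x h => (not_and_or.1 h).elim
      (fun k => .inr (.inr (continuousAt_fst.eventually (not_not.1 k)))) fun k => (z x k).imp_right .inl
  have cs := k3.cs k1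
  have p3 := Real.pi_gt_three
  refine nored hD h3 hw.sm hk o hT k1 (k2.trans (prod_mono_right (Ioo_subset_Ioo (by linarith) p3.le))) k3 hO hn ?_
  have kc := isCompact_univ (X := Y).prod (isCompact_Icc (a := (-2 : ℝ)) (b := 2))
  have cl : ∀ a, Cl (IC I) 1 univ a → Cs (IC I) 2 {x | |x.2| < 3} (df (IC I) (χ ∘ Prod.snd) * a) := fun a ha =>
    have k : ∀ x, x ∉ _ → (df (IC I) (χ ∘ Prod.snd) * a : Y × ℝ → _) x = 0 := fun x h => by
      rw [Pi.mul_apply, z' x h, zero_mul]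
    ⟨(Dr59.cl_df fun x _ => s3 x).mul ha, .intro kc k, closure_minimal (support_subset_iff'.2 k) kc.isClosed |>.trans
      fun x h => (abs_le.2 h.2).trans_lt (by norm_num)⟩
  have c1 := cl _ (cl_ang fun x _ => s1 x)
  have c2 := cl _ (Dr59.cl_df fun x _ => s2 x)
  have e1 : df (IC I) (χ ∘ Prod.snd) * ang (IC I) (θ ∘ Prod.fst * Circle.exp ∘ g ∘ Prod.fst) =
      df (IC I) (χ ∘ Prod.snd) * ang (IC I) (θ ∘ Prod.fst) + df (IC I) (χ ∘ Prod.snd) * df (IC I) (g ∘ Prod.fst) := by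
    rw [← mul_add]
    exact congrArg _ (funext fun x => (ang_mul (s1 x) (s4 x)).trans (congrArg _ (ang_exp (s2 x))))
  have e2 : df (IC I) (χ ∘ Prod.snd) * df (IC I) (g ∘ Prod.fst) =
      dM (IC I) (-((g ∘ Prod.fst) • df (IC I) (χ ∘ Prod.snd))) := funext fun x => by
    rw [Dr59.dM_neg, Pi.neg_apply, Dr59.dM_fsmul Dr59.ne0 ((s2 x).mdifferentiableAt Dr59.ne0)
      (Dr59.smAt_df (s3 x)), Dr59.dM_df (s3 x), smul_zero, add_zero]
    exact R208.F.io_anti _ _
  have e3 : ∀ a : Y × ℝ → Circle, df (IC I) (χ ∘ Prod.snd) * ang (IC I) a * (df (IC I) (χ ∘ Prod.snd) * ang (IC I) a) = 0 :=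
    fun a => funext fun x => by
      rw [Pi.mul_apply, Pi.mul_apply, ← mul_assoc, mul_assoc (df _ _ x)]
      exact (congrArg (· * _) (Orx52.io_three _ _)).trans (zero_mul _)
  rw [ip.eq_1 _ _ (_ * _), e3, integ_zero, add_zero, e1, Dr59.ip_add_right c1 c2 hO (hw.sm.mono (subset_univ _)), e2,
    Dr59.ip_dM hO hw (fun x _ => ((Dr59.smAt_df (s3 x)).fsmul le_rfl (s2 x)).neg) kc (subset_univ _)
      fun x h => by rw [Pi.neg_apply, Pi.smul_apply', z' x h, smul_zero, neg_zero], add_zero,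
    c1.ip_coh hO (hw.sm.mono (subset_univ _)) (hw'.mono (subset_univ _)) hx, e]

end Crest.Agent.X212.Nr4
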