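import Crest.Agent.X212.Nr4.Main
import Crest.Agent.X212.Loc8.Wld
import Crest.Agent.X212.Loc8.Sc
import Crest.Agent.X212.Cht98.Wld
import Crest.Agent.X212.Tm38.Defs
import Crest.Agent.X212.Hz56.Pc

/-!
# Row 212, NF (helper4): no flat connection next to a neck without reducibles
-/

set_option autoImplicit false
set_option linter.unusedSectionVars false
noncomputable section
open Set

namespace Crest.Agent.X212.Nr4
open An M G75 Cht98 Loc8 Cyl58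

variable {κ lam : Type} [Fintype κ] [Fintype lam] [DecidableEq lam] {Lm : LM κ lam} {S : Scene Lm}

theorem nf_scene {i : S.L} {a : S.A} {c : Finset S.A} {π : Reg S.A} {s : Bool} {O : Set S.X.M}
    (hp : ¬S.M.pin a) (hN : ((S.N i).cy a).yd.NoRed) (hπ : S.M.sys.Piece ↑c π) (hs : π a = some s)
    (hO : IsOpen O) (hc : IsPreconnected O) (h1 : ∀ (H : Type) [Group H], Hz56.H1 H O)
    (h2 : (S.M.sys.w a).half s ⊆ O) (h3 : O ⊆ S.M.sys.U π)
    (h4 : ∀ l ∈ S.ls, O ⊆ (S.M.sys.w l).sd true) : S.Nf i a c π := by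
  intro D m c' p e1 e2 _ pO ρ ⟨r1, r2⟩ ra x Ad hf
  have := S.M.con
  have := Hz56.locConn (M := S.X.M) S.X.I
  obtain ⟨s', hs'⟩ := Option.ne_none_iff_exists'.1 ra
  obtain ⟨y, hy⟩ := (S.M.sys.w a).ne s'
  have yρ := r1.adj a s' hs' hy
  obtain rfl : s' = s := Wall.sd_inj _ hy.2 (r2 yρ a s hs)
  have sub : O ⊆ S.M.sys.U ρ := fun z hz b t hb => (e2 (r1.bd_subset (Sys.mem_bd_of hb))).elim
    (fun k => Wall.subset_sd _ hc ((hπ.disjoint_cores (c'.2.mono fun b hb => ((e1 b).1 hb).1)).mono h3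
      (subset_biUnion_of_mem (u := fun a => (S.M.sys.w a).core) k)) (h2 hy) (yρ b t hb) hz)
    fun k => Wall.sd_inj _ (h4 b k (h2 hy)) (yρ b t hb) ▸ h4 b k hz
  have sr := sub.trans (U_src D.W.toCaps r1)
  have oi := img_oz D.W.toCaps hO sr
  have os := oz_sub D.W.toCaps r1 hO sub
  obtain ⟨ξ, R⟩ := exists_rd ((D.Λ i).B_ok m c') ((D.Λ i).G_ok m pO) Ad isOpen_interior
    (oi ⟨_, h2 hy, rfl⟩) (sur_oz _ hO sr (h2 hy) (sur_of_h1 hO hc h1 (h2 hy))) (.inr fun z hz => hf z (os hz))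
  have ha := r1.bd_subset ra
  have k := NkOK.of_mem (m := m) hp ha pO
  have h5 : pm s' / 2 ∈ Hs (Mark.tv c'.1 p.2 a) s' := by
    cases s' <;> exact ⟨⟨by norm_num [pm], by norm_num [pm]⟩, .inr (by norm_num [pm])⟩
  refine nf_nk (k.nk₀ (D.Λ i) s') hN Ad R ((bijOn_len k.tv_mem.2 s').1 h5) (fun y => oi ⟨_, h2 ⟨⟨(y, pm s' / 2), rfl⟩,
    (S.M.bn a).j_mem_sd.2 (by cases s' <;> norm_num [pm])⟩, ?_⟩) fun z hz => hf z (os hz)
  exact congrArg (fun r => D.W.nj c' a (y, r)) (li_len h5).symm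

variable {Γ : Wd38.Nm} {C : Wd38.Cx Γ} {G : Wd38.Tab C.kd κ} {P : Nm96.Pm Γ} (L : Br55.LP C G P lam)

/-- **TM-NF** -/
theorem nf (hN : Tm38.NrStmt L) : Tm38.NfStmt L := fun h μ i a x _ _ _ _ hS e hx =>
  nf_scene (hS.fz a (Br55.mem_fz.2 (e ▸ ⟨rfl, hx.1⟩))).1
    (hN h.h0 (h.l0 i) μ (h.uw a) x e hx.2.1 hx.2.2)

end Crest.Agent.X212.Nr4
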