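import Crest.Agent.X212.Nr4.Ang
import Crest.Agent.X212.Nr4.Nf
import Crest.Agent.X212.Hz56.Rod
import Crest.Agent.X212.Loc8.Hg

/-!
# Row 212, NORED (helper4): the angle function of a zero filling
-/

set_option autoImplicit false
set_option linter.unusedSectionVars false
noncomputable section
open scoped Manifold ContDiff Topology Real
open Function Filter Set
open Crest.Agent.R208.F (Ext)

namespace Crest.Agent.X212.Nr4
open Hz56 hiding off
open Lev33 (Coc Prim)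
open Rod53 Dr59 Loc8
open Line51 hiding tp Uni

section coc
variable {X G : Type*} [TopologicalSpace X] [CommGroup G] {S : Set X} {c d : X → X → G}

theorem coc_div (h : Coc S c) (k : Coc S d) : Coc S (c / d) := fun x hx => by
  filter_upwards [h x hx, k x hx] with y a b
  filter_upwards [a, b] with z a b
  simp only [Pi.div_apply, a, b, div_mul_div_comm]

theorem tr_of_div (h : Tr S (c / d)) (k : Tr S d) : Tr S c :=
  let ⟨b, h⟩ := h; let ⟨b', k⟩ := k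
  ⟨b * b', fun x hx => by
    filter_upwards [h x hx, k x hx] with y a e
    simp only [Pi.mul_apply, a, e, Pi.div_apply]
    rw [mul_mul_mul_comm, div_mul_cancel]⟩

theorem h1_arc : H1 G {u : Circle | u ≠ 1} := by
  have i : InjOn Circle.exp (Ioo 0 (2 * π)) := (Circle.exp_injOn_Ioc (by simp)).mono Ioo_subset_Ioc_self
  convert (h1_convex (convex_Ioo 0 (2 * π))).image (op_exp isOpen_Ioo) i
  refine Set.ext fun u => ⟨fun h => ?_, ?_⟩
  · obtain ⟨t, rfl⟩ := Circle.exp_surjective u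
    obtain ⟨s, hs, e⟩ := Circle.periodic_exp.exists_mem_Ico₀ Real.two_pi_pos t
    exact ⟨s, ⟨hs.1.lt_of_ne fun k => h (by rw [e, ← k, Circle.exp_zero]), hs.2⟩, e.symm⟩
  · rintro ⟨s, hs, rfl⟩ k
    exact hs.2.ne (Circle.exp_injOn_Ioc (a := 0) (b := 2 * π) (by simp) (Ioo_subset_Ioc_self hs)
      ⟨Real.two_pi_pos, le_rfl⟩ (k.trans Circle.exp_two_pi.symm))

end coc

variable {EN HN : Type} [NormedAddCommGroup EN] [NormedSpace ℝ EN] [FiniteDimensional ℝ EN]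
  [TopologicalSpace HN] {IN : ModelWithCorners ℝ EN HN} [IN.Boundaryless]
  {N : Type} [TopologicalSpace N] [ChartedSpace HN N] [IsManifold IN ∞ N] [T2Space N]
  {T : Tb IN N} {a b δ : Z2} {θ : N → Circle}
  {EY HY : Type} [NormedAddCommGroup EY] [NormedSpace ℝ EY] [FiniteDimensional ℝ EY]
  [TopologicalSpace HY] {IY : ModelWithCorners ℝ EY HY} [IY.Boundaryless] {Y : Type} [TopologicalSpace Y]
  [ChartedSpace HY Y] [IsManifold IY ∞ Y] (F : Fl T a b IY Y) (hu : Rod53.Uni a b)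

variable (θ δ) in
/-- the angle on the filling -/
def thY (y : Y) : Circle := thx T (fun _ => a) θ δ (f0 F hu y)

theorem thY_e {p : N} (h : p ∈ T.Ex) : thY δ θ F hu (F.e p) = θ p := by
  rw [thY, f0, F.cyf_e _ hu h, thx_ext h]

theorem csm_thY (hθ : Ang T θ δ) (h : dot δ a = 0) (y : Y) : CSm IY (thY δ θ F hu) y :=
  (hθ.csm fun _ => .of_forall fun _ => h).comp y (cm_f0 F hu y)

theorem tv_fill (hN : H1 ℤˣ (univ : Set N)) (hθ : Ang T θ (0, 1)) (h : dot (0, 1) a = 0) :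
    Tv univ {y | thY (0, 1) θ F hu y ≠ 1} := by
  refine ⟨subset_univ _, fun c k => ?_⟩
  have k1 := k.comp (T := T.Ex) (fun _ l => (F.ld_e l).contMDiffAt.continuousAt.continuousWithinAt)
    (mapsTo_univ _ _)
  have k2 := k1.comp (T := univ) (f := fun x : Circle => T.τ (1, x))
    (T.oe.continuous.comp (by fun_prop)).continuousOn fun x _ => T.τ_mem.2 x.coe_ne_zero
  have cθ : ContinuousOn θ T.Ex := fun _ l => (hθ.sm _ l).continuousAt.continuousWithinAt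
  have e : ∀ x : Circle, θ (T.τ (1, x)) = x := fun x => by
    rw [hθ.eq _ x.coe_ne_zero, chT]
    simpa using Glue52.dir_mul one_pos x
  have k3 := tr_tube T.oe.isOpenEmbedding hN (coc_div k1 (k2.comp cθ (mapsTo_univ _ _)))
    ⟨1, fun _ _ => .of_forall fun _ => by simp [pb, e]⟩
  have k4 := tr_of_div (S := T.Ex ∩ {p | θ p ≠ 1}) (k3.mono inter_subset_left)
    ((h1_arc.tr k2 (subset_univ _)).comp (cθ.mono inter_subset_left) fun _ l => l.2)
  have k5 := (op_of_pd F.pe.toOpenPartialHomeomorph inter_subset_left).tr (F.injOn_e.mono inter_subset_left) k4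
  have o := isOpen_ne_fun (continuous_iff_continuousAt.2 fun y => (csm_thY F hu hθ h y).continuousAt)
    (continuous_const (y := 1))
  refine Tr.ext_nsep o (o.inter F.oeE.isOpen_range) (o.inter_closure.trans' ?_) (k.mono (subset_univ _))
    (k5.mono ?_) fun y hy n => ?_
  · exact fun y hy => ⟨hy, dense_ie F hu y⟩
  · rintro _ ⟨l, q, rfl⟩
    have m := (F.hW _).1 q.2
    exact ⟨q, ⟨m, by rwa [← F.e_ie, mem_ofPred, thY_e F hu m] at l⟩, F.e_ie q⟩
  · obtain ⟨u, rfl⟩ := (F.surj' y).resolve_left fun ⟨p, m, l⟩ => n ⟨hy, _, (F.e_of m).symm.trans l⟩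
    refine (NSep.emb F.oeT.isOpenEmbedding ?_).inter (o.mem_nhds hy)
    convert (nsep_univ u).prod nsep_c
    exact Set.ext fun w => ⟨fun ⟨_, l⟩ => ⟨trivial, ((F.eq _ _).1 l).1⟩,
      fun l => ⟨_, (F.e_of (T.τ_mem.2 (gl_ne.2 l.2))).symm.trans (F.e_τ l.2)⟩⟩

variable {v : ℝ → Z2} {r : ℝ} {A : ℝ → ℝ × ℝ} {c σ : ℝ → ℝ} {G : Rod53.X T v → Ext E4}

theorem tg_off (h : TG T v r (ang IN θ) A c G) (hθ : Ang T θ δ) (hA : ∀ t, A t = c t • rc2 δ)
    {p : Rod53.X T v} (hp : p ∈ off T v) :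
    G p = (df (𝓡 4) (fun q => c (T.time v q)) * ang (𝓡 4) (thx T v θ δ) : _ → _) p := by
  have e : pot T v r (ang IN θ) A c =ᶠ[𝓝 p] (fun q => c (T.time v q)) • ax T v (ang IN θ) :=
    eventually_of_mem (isOpen_off.mem_nhds hp) fun q n => by
      by_cases l : q ∈ T.tor v ∧ T.yy v q ≤ 2 * r
      · rw [pot_apply, Pi.smul_apply', (xa_ang hθ (2 * r + 1)).ax_eq ⟨l.1, n, l.2.trans_lt (lt_add_one _)⟩,
          tq_apply, tq_apply, hA]
        simp only [rc2, Prod.smul_fst, Prod.smul_snd, smul_eq_mul]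
        module
      · exact (pot_far h.pos l).self_of_nhds
  rw [h.eq p hp, dM_congr e, dM_fsmul ne0 ((sm_time h.sc p).mdifferentiableAt ne0)
    ((xa_ang hθ 1).cl_ax.sm p hp), (xa_ang hθ 1).cl_ax.cl p hp, smul_zero, add_zero, Pi.mul_apply, ang_thx hθ hp]

theorem pm_tg (h : TG T v r (ang IN θ) A c G) (hθ : Ang T θ δ) (h0 : dot δ a = 0)
    (hA : ∀ t, A t = c t • rc2 δ) (hσ : Cyl58.IsOE 𝓘(ℝ, ℝ) 𝓘(ℝ, ℝ) σ) (hJ : ∀ s, σ s ∈ Jr v a) :
    pm (IY.prod 𝓘(ℝ, ℝ)) (𝓡 4) (F.yb v hu σ) G = df (IY.prod 𝓘(ℝ, ℝ)) ((c ∘ σ) ∘ Prod.snd) *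
      ang (IY.prod 𝓘(ℝ, ℝ)) (thY δ θ F hu ∘ Prod.fst) := funext fun x => by
  have s := (F.isOE_yb hu hσ hJ).contMDiff
  refine form_eq_of_dense (I := IY.prod 𝓘(ℝ, ℝ)) ((dense_ie F hu).preimage isOpenMap_fst)
    ((SmAt.pm (s x) (h.cl.sm _ trivial)).of_le (by simp))
    (((smAt_df (((h.sc.contMDiff.comp hσ.contMDiff) _).comp x contMDiffAt_snd)).mul
      (smAt_ang ((csm_thY F hu hθ h0 _).comp x contMDiffAt_fst))).of_le (by simp)) (.of_forall fun y hy => ?_)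
  have m : F.yb v hu σ y ∈ off T v := (cyf_mem_off F hu (q := (y.1, σ y.2)) (hJ _)).2 hy
  have d := (s y).mdifferentiableAt ne0
  rw [pm_congr_right (tg_off h hθ hA m), pm_mul, Pi.mul_apply, Pi.mul_apply,
    pm_df d ((sm_time h.sc _).mdifferentiableAt ne0), pm_ang (hθ.csm_off m) d]
  congr 1
  · exact congrArg (df _ · y) (funext fun z => congrArg c (F.time_yb hu hJ z))
  · refine ang_congr (eventually_of_mem ((F.oeE.isOpen_range.preimage continuous_fst).mem_nhds hy) ?_)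
    rintro ⟨_, t⟩ ⟨q, rfl⟩
    have := (F.hW _).1 q.2
    rw [comp_apply, comp_apply, Fl.yb, F.cyf_ie, thx_ext this, ← F.e_ie, thY_e F hu this]

theorem third {s : ℝ} (h : 2 ≤ s) : 1 / 3 ≤ π⁻¹ * Real.arctan s := by
  rw [le_inv_mul_iff₀ Real.pi_pos, mul_one_div, ← Real.arctan_sqrt_three]
  exact Real.arctan_mono ((Real.sqrt_le_left zero_le_two).2 (by norm_num) |>.trans h)

open M Wd38 Cyf70 Int54 in
/-- **NORED** for a filling in a rod manifold -/
theorem nored_fill [PreconnectedSpace N] {Y : Mf 3} [CompactSpace Y.M] {κ lam : Type} [Fintype κ] [Fintype lam]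
    [DecidableEq lam] {Z : Cy Y κ lam} (hZ : Z.OK) (F : Fl T a b Y.I Y.M) (hu : Rod53.Uni a b)
    (hN : H1 ℤˣ (univ : Set N)) (hθ : Ang T θ (0, 1)) (h0 : dot (0, 1) a = 0) {a' : ℤ → Z2}
    [MeasurableSpace (Rod53.X T (wd a'))] [BorelSpace (Rod53.X T (wd a'))]
    [SecondCountableTopology (Rod53.X T (wd a'))] {x : ℤ} (hJ : II x x ⊆ Jr (wd a') a) {G O : _ → Ext E4}
    (hG : WF T a' 1 (ang IN θ) (fun k => rc2 (if k ≤ x then 0 else (0, 1))) (fun k => if k ≤ x then 0 else 1) G)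
    (hc : Cs (𝓡 4) 2 (T.time _ ⁻¹' II x x) G) (hO : Ori (𝓡 4) O) {L : Ln E4 (Rod53.X T (wd a')) lam} {U : Set _}
    (hU : IsOpen U) (hs : T.time _ ⁻¹' II x x ⊆ U) (hL : L.On (𝓡 4) U) {u : _ → Matrix lam lam ℂ}
    (k : Line51.Uni (IC Y.I) (fun q => L.p (F.yb _ hu (Bs.yS x).ρ q)) (fun q => Z.L.p q.1) u {q | |q.2| ≤ 3})
    {n : ℤ} (hn : Odd n) (e : ip (𝓡 4) O (L.F (𝓡 4)) G = n * (2 * π) ^ 2) : Z.yd.NoRed := by
  have := F.conn
  have j := fun s => hJ (Bs.ρ_II (b := .yS x) rfl s)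
  have hσ : Cyl58.IsOE _ _ (Bs.yS x).ρ := isOE_sig (Bs.yS x).r0_lt
  have oe := F.isOE_yb hu hσ j
  have mp : Mp (IC Y.I) (𝓡 4) univ U (F.yb _ hu (Bs.yS x).ρ) := ⟨fun q _ => oe.contMDiff q, fun q _ =>
    hs (mem_preimage.2 ((F.time_yb hu j q).symm ▸ Bs.ρ_II rfl _))⟩
  have l := hL.pull mp
  have l' := Cy.ln_on hZ.ln
  have o : IsOpen {q : Y.M × ℝ | |q.2| < 3} := isOpen_lt (by fun_prop) continuous_const
  have ρ : ∀ s, (Bs.yS x).ρ s = x + 1 / 2 + π⁻¹ * Real.arctan s / 2 := fun s => by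
    simp only [Bs.ρ, Rod53.sig, Bs.r0]; ring
  refine nored_ang hZ.yd Y.dim (l'.cl_F isOpen_univ) ?_ (csm_thY F hu hθ h0) (tv_fill F hu hN hθ h0)
    (χ := pth (fun k => if k ≤ x then 0 else 1) ∘ (Bs.yS x).ρ) (hG.tg.sc.comp hσ.contMDiff.contDiff)
    (fun s h => pth_lo (j := x) (fun _ i => if_pos i) ?_) (fun s h => pth_hi (j := x + 1) (fun _ i => if_neg (by omega)) ?_)
    (hO.pm oe.loc) hn (l.cl_F isOpen_univ).sm
    (Uni.ex_F o (k.mono fun q (h : |q.2| < 3) => h.le) (l.mono (subset_univ _)) (l'.mono (subset_univ _))) (e ▸ ?_)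
  · rw [Cy.yd_G hZ.ln, Cy.yd_B]
    exact (Idg99.fl_ln (Num57.OK.of_base (by simp [Y.dim]) hZ.B hZ.G) l' rfl :)
  · have := third (s := -s) (by linarith)
    rw [Real.arctan_neg] at this
    rw [ρ]; linarith
  · have := third h
    rw [ρ]; push_cast; linarith
  refine (integ_eq_of_map (s := univ) (by simp [Y.dim]) hO (hO.pm oe.loc) .univ (fun q _ => oe.contMDiff q)
    oe.inj.injOn ((hO.pm oe.loc).same _) (fun y hy => ?_) (fun _ h => (h trivial).elim) fun q _ => ?_).symm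
  · rw [Pi.mul_apply, hc.eq_zero, mul_zero, map_zero]
    rwa [← univ_prod_univ, F.image_yb hu j, image_univ, Bs.range_ρ, show (Bs.yS x).r0 = x + 1 / 2 from rfl,
      Rz.half_II] at hy
  · rw [pm_mul, pm_tg F hu hG.tg hθ h0 (fun t => .trans (congrArg (pth · t) (funext fun i => by
      split_ifs <;> simp [rc2])) (pth_smul _ _ t)) hσ j, Pi.mul_apply, ← hL.F_pull hU isOpen_univ mp trivial]
    rfl

section word
open M G75 Wd38 Nm96 Cyl58 Br55 Cyf70
variable {Γ : Nm} {κ lam : Type} [Fintype κ] [Fintype lam] [DecidableEq lam] {C : Cx Γ}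

theorem nr_cy {w : Shp Γ} {hw : w.OK} {X : TP V4} {R : Rz C hw X} {s : ℤ} {Λ : NmL Γ} {L : LCx C Λ} {m : Wd38.Wt}
    (W : WL L R m lam) (h1 : w.l ≤ s) (h2 : s < w.r) (h0 : (w.s s).r.2.2 = 0) (ho : Odd (m.nr s))
    {Z : Cy (mY C.kd (.fil (w.s s).r)) κ lam} (hZ : Z.OK) {u : (mY C.kd (.fil (w.s s).r)).M × ℝ → Matrix lam lam ℂ}
    (k : Line51.Uni (IC (mY C.kd (.fil (w.s s).r)).I) (fun q => W.p (R.P h1 h2 rfl (q.1, (Bs.yS s).ρ q.2)))
      (fun q => Z.L.p q.1) u {q | |q.2| ≤ 3}) :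
    Z.yd.NoRed := by
  have h := Shp.rg_one h1 h2
  have : SecondCountableTopology (Rod53.X (C.T (w.kn s)) (wd (w.bz s (s + 1)))) := (C.tp w s (s + 1)).sc
  borelize (Rod53.X (C.T (w.kn s)) (wd (w.bz s (s + 1))))
  have ea : w.bz s (s + 1) s = (w.s s).r.2 := by rw [h.bz_eq hw, Shp.bw_le le_rfl]
  have hθ := ang_KD (C.kd (w.kn s))
  have ne : ∀ j, j ≠ s → (j + 1 ≤ s ↔ j ≤ s) := fun j _ => by omega
  obtain ⟨G, hG⟩ := exists_WF (a := w.bz s (s + 1)) (m := fun k => rc2 (if k ≤ s then 0 else (0, 1))) one_pos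
    (xa_ang hθ 1) (fun j => (eq_or_ne j s).elim (fun e => by simp [e, dr, rc2, ea, h0]) fun e => by
      simp [ne j e, dr]) fun k => if k ≤ s then 0 else 1
  have c := (hG.cs_time (xa_ang hθ 3) (by norm_num) (w.isWd_bz _ _) (i := s) (j := s + 1) (s := 0) (s' := 1)
    (fun k e => by simp [e, rc2]) fun k e => by simp [show ¬k ≤ s by omega, rc2]).mono
    (preimage_mono (show _ ⊆ II s s from Icc_subset_Ioo (by linarith) (by push_cast; linarith)))
  have i := preimage_mono (f := C.tm (w := w) (x := s) (y := s + 1)) (II_mono (le_refl s) (lt_add_one s).le)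
  have o := op_tm C w s (s + 1)
  have l := Line51.on_comp W.ln (⟨fun _ k => ((R.B h).ld k).contMDiffAt, mapsTo_univ _ _⟩ :
    Mp (𝓡 4) X.mf.I (C.tm ⁻¹' II s (s + 1)) univ (R.B h).φ)
  choose e he using vch hw W.ok h
  have e1 := (wc_line' he o l (W.tl h)).ip_eq (C.ok_spec rfl) (Orx52.pos_τ _ _) (w.isWd_bz _ _) o hG (c.mono i)
    (S := {s}) fun j k => by simp only [ne j (by simpa using k)]
  have a := sa_fd (ea ▸ (w.isWd_bz _ _).prim s : Pr (w.s s).r.2)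
  rw [← Line51.bn_le (y := s + 1) le_rfl, ← (he s).2, ea, dot, h0, mul_zero, add_zero] at ho
  refine nored_fill hZ (C.F (k := w.kn s) (w.s s).r rfl) (uni_s _) h1_S3 hθ (by simp [a, dot, h0])
    (a' := w.bz s (s + 1)) ?_ hG c C.ori_ok o i l k (Int.odd_mul.1 ho).1.neg
    (e1.trans (by simp [det2, rc2, mul_comm]))
  rw [a, ← Shp.bw_le (y := s + 1) le_rfl]
  exact h.jr hw

variable {G : Tab C.kd κ} {P : Pm Γ} (L : LP C G P lam)

/-- **TM-NR** -/
theorem nr : Tm38.NrStmt L := fun {w ls} h n hn μ ⟨a, ha⟩ x e h0 ho => by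
  subst e
  exact nr_cy (L.W h hn μ) ha.1.1.1 ha.1.1.2 h0 ho ((rs (L.N h hn μ) (fun _ : Unit => _) fun _ => ha).cy_ok ())
    (L.p h hn μ ▸ (L.N h hn μ).um ⟨_, ha⟩ :)

/-- **TM-NF** -/
theorem nf' : Tm38.NfStmt L := nf L (nr L)

end word

end Crest.Agent.X212.Nr4
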