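import Crest.Agent.X212.Loc8.Red

/-!
# Row 212, NORED (helper4): a parallel line has a parallel unit section where sign cocycles die
-/

set_option autoImplicit false
set_option linter.unusedSectionVars false
noncomputable section
open scoped Manifold ContDiff Topology InnerProductSpace
open Function Filter Set

namespace Crest.Agent.X212.Nr4
open An Wz78 Abel74 Hz56 Lev33 Loc8

section Top
variable {X : Type*} [TopologicalSpace X] {S U : Set X} {V : Type*} [NormedAddCommGroup V]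

/-- every sign cocycle on `S` is trivial on `U` -/
def Tv (S U : Set X) : Prop := U ⊆ S ∧ ∀ c : X → X → ℤˣ, Coc S c → Tr U c

theorem Tv.prod {Y : Type*} [TopologicalSpace Y] {W : Set Y} (h : Tv univ W) :
    Tv (univ : Set (Y × ℝ)) (W ×ˢ univ) := ⟨subset_univ _, fun c k =>
  tr_prod_star (t := (0 : ℝ)) (convex_univ trivial) (k.mono (subset_univ _))
    (h.2 _ (k.comp (f := fun x => (x, (0 : ℝ))) (by fun_prop) (mapsTo_univ _ _)))⟩

theorem Tv.unit_sec [NormedSpace ℝ V] (h : Tv S U) {p : X → V →L[ℝ] V} (hc : ContinuousOn p S)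
    (hp : ∀ x ∈ S, R1 (p x)) :
    ∃ s : X → V, ContinuousOn s U ∧ ∀ x ∈ U, p x (s x) = s x ∧ ‖s x‖ = 1 := by
  have nu : ∀ (g : ℤˣ) (v : V), ‖g • v‖ = ‖v‖ := fun g v => by
    rcases Int.units_eq_one_or g with rfl | rfl <;> simp
  have pu : ∀ (g : ℤˣ) (q : V →L[ℝ] V) (v : V), q (g • v) = g • q v := fun g q v => by
    rcases Int.units_eq_one_or g with rfl | rfl <;> simp
  obtain ⟨s, c, h1, h2, h3⟩ := exists_coc (S := S) (fun (g : ℤˣ) (v : V) => g • v) mul_smul
    (Gd := fun x s => ContinuousWithinAt s S x ∧ ∀ᶠ y in 𝓝[S] x, p y (s y) = s y ∧ ‖s y‖ = 1)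
    (fun x hx => by
      obtain ⟨v, v0, v1, -⟩ := hp x hx
      have c1 : ContinuousOn (fun y => p y v) S := hc.clm_apply continuousOn_const
      have h3 : ∀ᶠ y in 𝓝[S] x, p y v ≠ 0 := (c1 x hx).eventually_ne (v1.trans_ne v0)
      refine ⟨fun y => ‖p y v‖⁻¹ • p y v, ?_⟩
      filter_upwards [h3, eventually_eventually_nhdsWithin.2 h3, self_mem_nhdsWithin] with y y1 y2 y3
      exact ⟨((c1 y y3).norm.inv₀ (norm_ne_zero_iff.2 y1)).smul (c1 y y3),
        (y2.and self_mem_nhdsWithin).mono fun z hz => (hp z hz.2).unit hz.1⟩)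
    (fun x hx s t hs ht => by
      have a := hs.2.self_of_nhdsWithin hx
      have b := ht.2.self_of_nhdsWithin hx
      rcases (hp x hx).pm a.1 b.1 a.2 b.2 with e | e
      · exact ⟨1, (near_eq hp hs.1 ht.1 e hs.2 ht.2).mono fun y hy => by simpa using hy⟩
      · exact ⟨-1, (near_eq hp hs.1.neg ht.1 e (hs.2.mono fun y hy => by simpa using hy) ht.2).mono
          fun y hy => by simpa using hy⟩)
    (fun x hx s g h hs e => by
      have a := (hs.2.self_of_nhdsWithin hx).2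
      have n : ∀ v : V, ‖v‖ = 1 → v ≠ -v := fun v hv k => by
        rw [eq_neg_iff_add_eq_zero, ← two_smul ℝ, smul_eq_zero] at k
        rcases k with k | k
        · norm_num at k
        · simp [k] at hv
      rcases Int.units_eq_one_or g with rfl | rfl <;> rcases Int.units_eq_one_or h with rfl | rfl
      · rfl
      · exact absurd (by simpa using e) (n _ a)
      · exact absurd (by simpa using e.symm) (n _ a)
      · rfl)
  obtain ⟨b, hb⟩ := h.2 c h1
  have k : ∀ x ∈ U, ∀ᶠ y in 𝓝[U] x, b y • s y y = b x • s x y := fun x hx => by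
    filter_upwards [hb x hx, (h3 x (h.1 hx)).filter_mono (nhdsWithin_mono x h.1)] with y y1 y2
    rw [y1, mul_smul, y2]
  have g := fun x (hx : x ∈ U) => (h2 x (h.1 hx)).self_of_nhdsWithin (h.1 hx)
  refine ⟨fun y => b y • s y y, fun x hx => (((g x hx).1.mono h.1).const_smul (b x)).congr_of_eventuallyEq
    (k x hx) rfl, fun x hx => ?_⟩
  have := (g x hx).2.self_of_nhdsWithin (h.1 hx)
  rw [pu, nu, this.1]
  exact ⟨rfl, this.2⟩

end Top

variable {E : Type} [NormedAddCommGroup E] [NormedSpace ℝ E] [FiniteDimensional ℝ E]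
  [MeasurableSpace E] [BorelSpace E]
  {HM : Type} [TopologicalSpace HM] {I : ModelWithCorners ℝ E HM} [I.Boundaryless]
  {M : Type} [TopologicalSpace M] [ChartedSpace HM M] [IsManifold I ∞ M]
  [MeasurableSpace M] [BorelSpace M] [SecondCountableTopology M] [T2Space M]
  {ι : Type} [Fintype ι] {lam : Type} [Fintype lam]

theorem Tv.unit_sec_smooth {V : Type*} [NormedAddCommGroup V] [InnerProductSpace ℝ V] {S U : Set M}
    (h : Tv S U) {p : M → V →L[ℝ] V} (hc : ContMDiffOn I 𝓘(ℝ, V →L[ℝ] V) ∞ p S)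
    (hp : ∀ x ∈ S, R1 (p x)) :
    ∃ s : M → V, ContMDiffOn I 𝓘(ℝ, V) ∞ s U ∧ ∀ x ∈ U, p x (s x) = s x ∧ ‖s x‖ = 1 := by
  obtain ⟨s, h1, h2⟩ := h.unit_sec hc.continuousOn hp
  have hp := fun x (hx : x ∈ U) => hp x (h.1 hx)
  refine ⟨s, fun x hx => ?_, h2⟩
  have c1 : ContMDiffOn I 𝓘(ℝ, V) ∞ (fun y => p y (s x)) U :=
    (hc.mono h.1).clm_apply contMDiffOn_const
  have n0 : p x (s x) ≠ 0 := by rw [(h2 x hx).1, ← norm_ne_zero_iff, (h2 x hx).2]; exact one_ne_zero
  have c2 : ContMDiffWithinAt I 𝓘(ℝ, V) ∞ (fun y => ‖p y (s x)‖⁻¹ • p y (s x)) U x :=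
    (((contDiffAt_norm ℝ n0).inv (norm_ne_zero_iff.2 n0)).smul
      contDiffAt_id).contMDiffAt.comp_contMDiffWithinAt x (c1 x hx)
  have e := near_eq hp c2.continuousWithinAt (h1 x hx) (by simp [(h2 x hx).1, (h2 x hx).2])
    ((((c1 x hx).continuousWithinAt.eventually_ne n0).and self_mem_nhdsWithin).mono
      fun z hz => (hp z hz.2).unit hz.1) (eventually_nhdsWithin_of_forall h2)
  exact c2.congr_of_eventuallyEq e (e.self_of_nhdsWithin hx)

variable {B : Base M ι lam} {G : Geo I M ι lam} {S O : Set M}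

/-- **a parallel line has a parallel unit section where sign cocycles are trivial** -/
theorem rd_of_lin {r : ℕ} {c : Cfg M ι lam r} (hB : B.OK I) (A : c.Adm B G) (hS : IsOpen S)
    (hO : IsOpen O) (h : Tv S O) (hl : Nd18.Lin G.F c S) : ∃ ξ, Rd G.F c.m c.W O ξ := by
  obtain ⟨π, hπ, hl⟩ := hl
  have R := fun x hx => r1_of_trace (hl x hx).2.1 (hl x hx).2.2.2.1
  obtain ⟨s, s1, s2⟩ := h.unit_sec_smooth hπ R
  have n := fun x (hx : x ∈ O) => hO.mem_nhds hx
  have sm : ∀ x ∈ O, SA I s x := fun x hx => s1.contMDiffAt (n x hx)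
  have par : ∀ x ∈ O, ∀ a, nab I G.F.e (c.m.adW c.W) a s x = 0 := fun x hx a => by
    have e1 : (fun y => π y (s y)) =ᶠ[𝓝 x] s := mem_of_superset (n x hx) fun y hy => (s2 y hy).1
    have e2 := nab_app (e := G.F.e) (A := c.m.adW c.W) a (hπ.contMDiffAt (hS.mem_nhds (h.1 hx))) (sm x hx)
    rw [nab_congr a e1] at e2
    have e3 : Sob92.dv I (G.F.e a) π x + (c.m.adW c.W a x * π x - π x * c.m.adW c.W a x) = 0 :=
      (hl x (h.1 hx)).2.2.2.2 a
    rw [e3, zero_apply, zero_add] at e2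
    have e4 := dv_inner (e := G.F.e) a (adW_skw A.conn a x) (sm x hx) (sm x hx)
    have e5 : (fun y => ⟪s y, s y⟫_ℝ) =ᶠ[𝓝 x] fun _ => (1 : ℝ) := mem_of_superset (n x hx) fun y hy => by
      simp only [mem_ofPred_eq, real_inner_self_eq_norm_sq, (s2 y hy).2]; norm_num
    rw [Sob92.dv_congr e5, Sob92.dv_const, real_inner_comm (nab I G.F.e (c.m.adW c.W) a s x)] at e4
    obtain ⟨v, -, -, hv⟩ := R x (h.1 hx)
    obtain ⟨t, ht⟩ := hv (s x)
    obtain ⟨u, hu⟩ := hv (nab I G.F.e (c.m.adW c.W) a s x)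
    rw [(s2 x hx).1] at ht
    rw [← e2] at hu
    have n1 := (s2 x hx).2
    rw [hu, ht, real_inner_smul_left, real_inner_smul_right, real_inner_self_eq_norm_sq] at e4
    rw [ht, norm_smul] at n1
    have : u * (t * ‖v‖ ^ 2) = 0 := by simp only [Pi.zero_apply] at e4; linarith
    rw [hu]
    rcases mul_eq_zero.1 this with k | k
    · rw [k, zero_smul]
    · exfalso
      rcases mul_eq_zero.1 k with k | k
      · simp [k] at n1
      · simp [pow_eq_zero_iff two_ne_zero |>.1 k] at n1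
  have e : ∀ x ∈ O, O.indicator (fun y => (4 : ℝ) • s y) =ᶠ[𝓝 x] fun y => (4 : ℝ) • s y := fun x hx =>
    mem_of_superset (n x hx) fun _ hy => indicator_of_mem hy _
  have mem : ∀ x ∈ O, (4 : ℝ) • s x ∈ c.m.gS x := fun x hx => Submodule.smul_mem _ _ (by
    rw [← (s2 x hx).1, ← (hl x (h.1 hx)).2.2.1]; exact pg_mem x _)
  refine ⟨O.indicator fun y => (4 : ℝ) • s y, ⟨fun x hx => (SA.smul contMDiffAt_const (sm x hx)).congr_of_eventuallyEq
    (e x hx), fun x hx => (e x hx).eq_of_nhds ▸ mem x hx, fun x hx => ?_, fun x hx a => ?_⟩, hO,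
    fun x hx => indicator_of_notMem hx _⟩
  · rw [indicator_of_mem hx]
    exact sq_of_norm hB A.ok (mem x hx) (by rw [norm_smul, (s2 x hx).2]; norm_num)
  · rw [nab_congr a (e x hx), nab_csmul a _ (sm x hx), par x hx, smul_zero]

end Crest.Agent.X212.Nr4
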