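import Crest.Agent.X212.Nr4.Tor
import Crest.Agent.X212.Nr4.Sec
import Crest.Agent.X212.Loc8.Long
import Crest.Agent.X212.Im23.Cls
import Crest.Agent.X212.One97.Ext

/-!
# Row 212, NORED (helper4): an odd test line excludes almost flat reducibles
-/

set_option autoImplicit false
set_option linter.unusedSectionVars false
noncomputable section
open scoped Manifold ContDiff Topology InnerProductSpace Real
open Function Filter Set MeasureTheory
open Crest.Agent.R208.F (Ext)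

namespace Crest.Agent.X212.Nr4
open An Wz78 Abel74 Loc8 Pj41 Cyf70 Nd18 Idg99 Int54 Tmp64
open Num57 (k2 vol)
open Dr59 (ip)

variable {E : Type} [NormedAddCommGroup E] [NormedSpace ℝ E] [FiniteDimensional ℝ E]
  [MeasurableSpace E] [BorelSpace E]
  {HM : Type} [TopologicalSpace HM] {I : ModelWithCorners ℝ E HM} [I.Boundaryless]
  {Y : Type} [TopologicalSpace Y] [ChartedSpace HM Y] [IsManifold I ∞ Y] [T2Space Y]
  [MeasurableSpace Y] [BorelSpace Y] [SecondCountableTopology Y] [CompactSpace Y] [ConnectedSpace Y]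
  {κ : Type} [Fintype κ] {lam : Type} [Fintype lam] {D : YD I Y κ lam} {β : YC Y κ lam}

theorem Fg_cy (hβ : D.Adm β) (x : Y × ℝ) :
    (cy β).m.Fg D.Z (cy β).W x = (cy β).m.Fg D.Z (cy β).W (x.1, 0) := by
  have k : ∀ a b, D.Z.D a ((cy β).W b) x = D.Z.D a ((cy β).W b) (x.1, 0) := fun a b => by
    have sm : Sm I (β.W b) := sm_slice_fst (hβ.adm.conn.cc.sm b) 0
    cases a with
    | none => exact (congrFun (D_none_fst _ sm) _).trans (congrFun (D_none_fst _ sm) (x.1, 0)).symm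
    | some a =>
      exact (congrFun (D_some_fst _ sm a) _).trans (congrFun (D_some_fst _ sm a) (x.1, 0)).symm
  have k2 : ∀ a b j, D.Z.c a b j x = D.Z.c a b j (x.1, 0) := fun a b j => by
    cases a <;> cases b <;> cases j <;> rfl
  simp only [Md.Fg, Wz78.curv, ← Pre.D_def, k, k2]
  rfl

/-- **NORED**: `w` is the curvature form of the line -/
theorem nored (hD : D.OK) (h3 : Module.finrank ℝ E = 3) {w f O : Y × ℝ → Ext (E × ℝ)}
    (hw : Dr59.Sm (IC I) univ w) (hk : Idg99.fl D.B D.G = k2 D.Z w) {V : Set Y} (hV : IsOpen V)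
    (hT : Tv univ V) {K : Set (Y × ℝ)} (hK : IsCompact K) (hs : K ⊆ V ×ˢ Ioo (-π) π)
    (hf : RL (IC I) K f) (hO : Ori (IC I) O) {n : ℤ} (hn : Odd n)
    (e : ip (IC I) O w f + ip (IC I) O f f = n * (2 * π) ^ 2) : D.NoRed := by
  have ok : Num57.OK D.Z D.B.o := Num57.OK.of_base (by simp [h3]) hD.B hD.G
  borelize Circle
  have cs := hf.cs hK
  obtain ⟨n, hn, e⟩ : ∃ n : ℤ, Odd n ∧ ip (IC I) (vol D.Z D.B.o) w f + ip (IC I) (vol D.Z D.B.o) f f =
      n * (2 * π) ^ 2 := by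
    rcases hO.sameOn_or ok.ori isPreconnected_univ with h | h
    · exact ⟨n, hn, by rwa [← cs.ip_ori hO ok.ori (h.mono (subset_univ _)),
        ← cs.ip_ori hO ok.ori (h.mono (subset_univ _))]⟩
    · rw [cs.ip_ori hO ok.ori.neg (h.mono (subset_univ _)), cs.ip_ori hO ok.ori.neg
        (h.mono (subset_univ _)), Dr59.ip_neg_ori, Dr59.ip_neg_ori] at e
      exact ⟨-n, hn.neg, by push_cast; linarith⟩
  obtain ⟨C, C0, hC⟩ := pair_le hD.G.vol ok.ori (fun x => cs.cl.sm x trivial) hK fun _ => cs.eq_zero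
  refine ⟨1 / (C + 1), by positivity, fun β A hL => ?_⟩
  have o := hV.prod (isOpen_univ (X := ℝ))
  obtain ⟨ξ, R⟩ := rd_of_lin (G := D.G) hD.B A.adm isOpen_univ o hT.prod hL
  have sub : K ⊆ V ×ˢ univ := hs.trans (prod_mono_right (subset_univ _))
  have cl := (R.cl_fm hD.G A.adm.conn).smul 2
  obtain ⟨u, u1, -, -, u2⟩ := exists_fo hK o sub cl.sm cl.dg
  obtain ⟨m, hm⟩ := char_cyl hD A.adm R h3 hK sub (hs.trans (prod_mono_left (subset_univ _))) hf
  set g := (2 : ℝ) • fm D.G.F (cy β).m (cy β).W ξ with hg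
  have e2 : ∀ x, wf D.B.o (k2 D.Z f) (k2 D.Z (f + (w + g))) x = wf D.B.o (k2 D.Z f) (k2 D.Z f) x +
      wf D.B.o (k2 D.Z f) (fun a b x => Idg99.fl D.B D.G a b x +
        2 * fF D.Z (cy β).m (cy β).W ξ a b x) x := fun x => by
    rw [← wf_add, hk]
    exact wf_congr fun a b => by
      rw [Num57.k2_add, Num57.k2_add, hg, Num57.k2_smul]
      exact congrArg (fun t => _ + (_ + 2 * t)) (k2_fm hD.G A.adm.conn a b x)
  have e3 : ip (IC I) (vol D.Z D.B.o) f (f + (w + g)) =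
      1 / 4 * ∫ x, wf D.B.o (k2 D.Z f) (k2 D.Z (f + (w + g))) x ∂D.Z.μ := integ_mul ok cs.cl.dg _
  have c2 := cs.mono sub
  have s1 := hw.mono (subset_univ (V ×ˢ univ))
  rw [integral_div, div_eq_iff (by positivity)] at hm
  rw [funext e2, hm, Dr59.ip_comm cs.cl.dg, c2.ip_add ok.ori (cs.on _).sm (s1.add cl.sm),
    c2.ip_add ok.ori s1 cl.sm, ← cs.ip_congr fun x hx => (u2 x hx).eq_of_nhds] at e3
  have h1 : ip (IC I) (vol D.Z D.B.o) u f = ((2 * m - n : ℤ) : ℝ) * (2 * π) ^ 2 := by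
    push_cast; linarith
  have h2 : (1 : ℝ) ≤ ((2 * m - n : ℤ) : ℝ) ^ 2 := by
    exact_mod_cast (one_le_sq_iff_one_le_abs _).2 (Int.one_le_abs (by obtain ⟨j, rfl⟩ := hn; omega))
  have c1 : Continuous ((cy β).m.Fg D.Z (cy β).W) := (PiLp.continuous_toLp 2 _).comp
    (continuous_pi fun s => (sm_Fg hD.G A.adm.conn (Std94.sm_pg hD.B A.adm.ok) s).continuous)
  have h4 : en D.G.F K u ≤ 2 * π * (∫ y, ‖(cy β).m.Fg D.Z (cy β).W (y, 0)‖ ^ 2 ∂D.F.μ) / 4 := by
    rw [en_congr hK.measurableSet fun x hx => (u2 x hx).eq_of_nhds, en, setIntegral_congr_fun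
      hK.measurableSet fun x hx => R.norm_Fg hD.B hD.G A.adm.ok A.adm.conn (sub hx), integral_div]
    refine div_le_div_of_nonneg_right ((setIntegral_mono_set (t := univ ×ˢ Icc (-π) π)
      ((c1.norm.pow 2).continuousOn.integrableOn_compact (isCompact_univ.prod isCompact_Icc))
      (.of_forall fun _ => sq_nonneg _) (hs.trans (prod_mono (subset_univ _)
        Ioo_subset_Icc_self)).eventuallyLE).trans_eq ?_) (by norm_num)
    rw [show D.G.F.μ = D.F.μ.prod volume from rfl, ← Measure.prod_restrict, Measure.restrict_univ]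
    refine (congrArg _ (funext fun x => congrArg (‖·‖ ^ 2) (Fg_cy A x))).trans ((integral_fun_fst
      (μ := D.F.μ) (ν := volume.restrict (Icc (-π) π)) fun y => ‖(cy β).m.Fg D.Z (cy β).W (y, 0)‖ ^ 2).trans ?_)
    simp [Real.pi_pos.le, two_mul]
  have h5 := (hC u u1).trans (mul_le_mul_of_nonneg_left h4 C0)
  have h6 : 0 ≤ ∫ y, ‖(cy β).m.Fg D.Z (cy β).W (y, 0)‖ ^ 2 ∂D.F.μ := integral_nonneg fun _ => sq_nonneg _
  rw [h1, mul_pow] at h5
  rw [div_le_iff₀ (by positivity)]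
  have p3 := Real.pi_gt_three
  have h7 : 2 * π ≤ ((2 * π) ^ 2) ^ 2 := by nlinarith [sq_nonneg ((2 * π) ^ 2 - 1)]
  nlinarith [mul_nonneg C0 h6]

theorem curv_frz {V : Type} [NormedAddCommGroup V] [NormedSpace ℝ V] {F : Fr I Y κ} {t : ℝ}
    {W : Option κ → Y × ℝ → V →L[ℝ] V} {x : Y × ℝ} (h : ∀ a, FSm (IC I) (W a) (x.1, t)) (a b : Option κ) :
    curv (IC I) (cyl F).e (cyl F).c (fun a x => sw (fun _ => t) a x.2 • W a (x.1, t)) a b x =
      (sw (fun _ => t) a 0 * sw (fun _ => t) b 0) • curv (IC I) (cyl F).e (cyl F).c W a b (x.1, t) := by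
  have k := fun a b => D_sq F.toPre (θ := fun _ => t) contDiff_const (x := x) (h b) a
  simp only [Pre.D_def, Tmp64.sq] at k
  cases a <;> cases b <;> simp [curv, sw, cyl, cc, k]

variable {E' : Type} [NormedAddCommGroup E'] [NormedSpace ℝ E'] [FiniteDimensional ℝ E']
  [MeasurableSpace E'] [BorelSpace E']
  {H' : Type} [TopologicalSpace H'] {J : ModelWithCorners ℝ E' H'} [J.Boundaryless]
  {M : Type} [TopologicalSpace M] [ChartedSpace H' M] [IsManifold J ∞ M] [T2Space M]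
  [MeasurableSpace M] [BorelSpace M] [SecondCountableTopology M]
  {B : Base M (Option κ) lam} {G : Geo J M (Option κ) lam}

/-- **NF**: no flat reducible connection near a slice of a neck -/
theorem nf_nk (K : Nk D B G) (hN : D.NoRed) {c : Cfg M (Option κ) lam 0} (A : c.Adm B G) {O : Set M}
    {ξ : M → c.m.A} (R : Rd G.F c.m c.W O ξ) {t : ℝ} (ht : t ∈ K.J) (hO : ∀ y, K.ψ (y, t) ∈ O) :
    ¬∀ z ∈ O, c.m.Fg G.F c.W z = 0 := fun hf => by
  obtain ⟨c₀, h0, h⟩ := hN
  have m : ∀ y, (y, t) ∈ K.ψ.source := fun y => K.mem_src.2 ht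
  have y := One97.yd_cy D
  have a0 := One97.admOn_pb K isOpen_univ (admOn_univ.2 A)
  have a1 : (sqC (fun _ => t) (K.pb c)).Adm D.B D.G := y.adm_sq_of_band (J := {t}) contDiff_const
    (fun _ => rfl) (a0.mono fun x hx => ⟨K.mem_src.2 (hx.2 ▸ ht), trivial⟩)
  let β : YC Y κ lam := pb (fun y => (y, 0)) (sqC (fun _ => t) (K.pb c))
  have eW : (cy β).W = (sqC (fun _ => t) (K.pb c)).W := funext fun b => funext fun x => by
    cases b
    exacts [congrArg (· • _) (by simp [sw]), rfl]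
  have e : cy β = sqC (fun _ => t) (K.pb c) := congrArg (fun W => (⟨(cy β).m, W, (cy β).Φ, (cy β).z⟩ :
    Cfg _ _ _ 0)) eW
  have hβ : D.Adm β := ⟨e ▸ a1, fun z => (congrArg (· • _) (by simp [sw])).trans (zero_smul ℝ _)⟩
  have s1 : ∀ y, FSm (IC I) (fun x => ξ (K.ψ x)) (y, t) := fun y => K.rel.sm (m y) (R.sm _ (hO y))
  have hL : D.Ln β := by
    refine Im23.lin_of_red hβ.adm ⟨fun x => ξ (K.ψ (x.1, t)), ⟨fun x _ => (fsm_sq (θ := fun _ => t)
      contDiff_const (s1 x.1)).contMDiffWithinAt, fun x _ => R.mem _ (hO _), fun a x _ => ?_⟩,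
      Classical.arbitrary _, trivial, fun k => ?_⟩
    · have h1 := (K.rel.nab (A := (K.pb c).m.adW (K.pb c).W) (u := fun x => ξ (K.ψ x)) (m x.1) a rfl
        (.of_forall fun _ => rfl)).trans (R.par _ (hO x.1) a)
      have h2 := y.D_sq (θ := fun _ => t) contDiff_const (x := x) (s1 x.1) a
      have h3 := congrArg (sw (fun _ => t) a x.2 • ·) h1
      simp only [nab, smul_add] at h3
      rw [eW]
      refine Eq.trans (congrArg₂ (· + ·) h2 ?_) (h3.trans (smul_zero (A := c.m.A) _))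
      exact DFunLike.congr_fun (map_smul adcL _ ((K.pb c).W a (x.1, t))) _
    · have := norm_sq A.ok (R.mem _ (hO _)) (R.sq _ (hO (Classical.arbitrary (Y × ℝ)).1))
      rw [show ξ _ = 0 from k] at this
      norm_num at this
  refine (h β hβ hL).not_gt (h0.trans_eq' ?_)
  have z : ∀ x, (cy β).m.Fg D.Z (cy β).W x = 0 := fun x => by
    have h1 := (K.rel.Fg (m x.1) c.W).trans (hf _ (hO x.1))
    ext1 s
    have h2 := congrArg (fun v => (sw (fun _ => t) s.1 0 * sw (fun _ => t) s.2 0) • v s) h1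
    rw [eW]
    simp only [Md.Fg, ← map_smul] at h2 ⊢
    refine Eq.trans (congrArg _ (congrArg _ (curv_frz (W := (K.pb c).W)
      (fun a => a0.conn.sm a _ ⟨m x.1, trivial⟩) s.1 s.2))) (h2.trans (by simp; rfl))
  simp [z]

end Crest.Agent.X212.Nr4
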