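import Crest.Agent.X212.Loc8.Chr
import Crest.Agent.X212.Nka63.B
import Crest.Agent.X212.Glue52.More
import Crest.Agent.X212.Nd18.Props

/-!
# Row 212, NORED (helper4): characteristic elements on a cylinder, by closing it up to `Y × S¹`
-/

set_option autoImplicit false
set_option linter.unusedSectionVars false
noncomputable section
open scoped Manifold ContDiff Topology InnerProductSpace Real
open Function Filter Set MeasureTheory
open Crest.Agent.R208.F (Ext)

namespace Crest.Agent.X212.Nr4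
open An Wz78 Abel74 Loc8 Pj41 Cyf70 Nd18 Met55 Idg99
open Num57 (k2)

section desc
variable {E : Type} [NormedAddCommGroup E] [NormedSpace ℝ E] [FiniteDimensional ℝ E]
  [MeasurableSpace E] [BorelSpace E]
  {HM : Type} [TopologicalSpace HM] {I : ModelWithCorners ℝ E HM} [I.Boundaryless]
  {M : Type} [TopologicalSpace M] [ChartedSpace HM M] [IsManifold I ∞ M]
  [MeasurableSpace M] {ι : Type} [Fintype ι] {lam : Type} [Fintype lam]
  {E' : Type} [NormedAddCommGroup E'] [NormedSpace ℝ E'] [FiniteDimensional ℝ E']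
  [MeasurableSpace E'] [BorelSpace E']
  {HM' : Type} [TopologicalSpace HM'] {I' : ModelWithCorners ℝ E' HM'} [I'.Boundaryless]
  {M' : Type} [TopologicalSpace M'] [ChartedSpace HM' M'] [IsManifold I' ∞ M']
  [MeasurableSpace M'] {ψ : M → M'} {O : Set M} {B₀ : Base M ι lam} {B : Base M' ι lam}
  {G : Geo I M ι lam} {G' : Geo I' M' ι lam} {m : Md M' ι lam}

/-- connections descend along literal relations of frames -/
theorem conn_desc (h : FRel G.F G'.F ψ O) (ha : ∀ a, ∀ x ∈ O, G.a a x = G'.a a (ψ x))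
    (hP : ∀ a b, ∀ x ∈ O, B₀.P a b x = B.P a b (ψ x)) {W : m.Cn}
    (k : ConnOn B₀ G (cmM ψ m) (fun a x => W a (ψ x)) O) : ConnOn B G' m W (ψ '' O) := by
  refine ⟨fun a => ?_, fun a => ?_, fun a => ?_, fun a b => ?_, fun a => ?_, fun a => ?_,
    fun a => ?_⟩ <;> rintro _ ⟨x, hx, rfl⟩
  · exact Cyl58.contMDiffAt_of_comp (h.ld x hx) (k.sm a x hx)
  · simp only [← hP _ _ x hx]; exact k.proj a x hx
  · rw [← h.D hx a (u := fun y => m.p (ψ y)) (.of_forall fun _ => rfl)]; exact k.par a x hx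
  · rw [← h.D hx a (u := fun y => m.ρ b (ψ y)) (.of_forall fun _ => rfl)]
    simp only [← h.Gam hx]
    exact k.comp a b x hx
  · exact k.sk a x hx
  · exact k.J a x hx
  · intro s
    rw [← h.D hx a (u := fun y => m.j (ψ y)) (.of_forall fun _ => rfl), ← ha a x hx]
    exact k.j a x hx s

theorem k2_rel {F : Fr I M ι} {F' : Fr I' M' ι} (h : FRel F F' ψ O) {x : M} (hx : x ∈ O)
    (w : M' → Ext E') (a b : ι) : k2 F (Dr59.pm I I' ψ w) a b x = k2 F' w a b (ψ x) := by
  rw [k2, Dr59.pm_apply, Line51.e2_pb]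
  exact congrArg₂ _ (h.e a x hx) (h.e b x hx)

end desc

variable {E : Type} [NormedAddCommGroup E] [NormedSpace ℝ E] [FiniteDimensional ℝ E]
  [MeasurableSpace E] [BorelSpace E]
  {HM : Type} [TopologicalSpace HM] {I : ModelWithCorners ℝ E HM} [I.Boundaryless]
  {Y : Type} [TopologicalSpace Y] [ChartedSpace HM Y] [IsManifold I ∞ Y] [T2Space Y]
  [MeasurableSpace Y] [BorelSpace Y] [SecondCountableTopology Y] [CompactSpace Y]
  {κ : Type} [Fintype κ] {lam : Type} [Fintype lam]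

variable (I) in
abbrev IT := I.prod (𝓡 1)

/-- the covering -/
def cv (x : Y × ℝ) : Y × Circle := (x.1, Circle.exp x.2)

/-- a section -/
def sc (z : Y × Circle) : Y × ℝ := (z.1, Complex.arg z.2)

theorem cv_sc (z : Y × Circle) : cv (sc z) = z := Prod.ext rfl (Circle.exp_arg _)

theorem sc_cv {x : Y × ℝ} (h : x ∈ univ ×ˢ Ioo (-π) π) : sc (cv x) = x :=
  Prod.ext rfl (Circle.arg_exp h.2.1 h.2.2.le)

theorem ld_cv (x : Y × ℝ) : IsLocalDiffeomorphAt (IC I) (IT I) ∞ cv x :=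
  Cyl58.ld_prodMap (Cyl58.ld_id x.1) (Glue52.ld_circleExp x.2)

/-- the frame -/
def te (e : κ → VF I Y) (a : Option κ) (z : Y × Circle) : TangentSpace (IT I) z :=
  (mfderiv (IC I) (IT I) cv (sc z) (ce e a (sc z)) : E × EuclideanSpace ℝ (Fin 1))

theorem te_rel (e : κ → VF I Y) (a : Option κ) (x : Y × ℝ) :
    mfderiv (IC I) (IT I) cv x (ce e a x) = te e a (cv x) := by
  obtain ⟨n, hn⟩ := Circle.exp_eq_exp.1 (Circle.exp_arg (Circle.exp x.2))
  let τ := fun y : Y × ℝ => (y.1, y.2 + n * (2 * π))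
  have h1 : cv = cv ∘ τ := funext fun y => Prod.ext rfl (Circle.exp_eq_exp.2 ⟨n, rfl⟩).symm
  have h2 : HasMFDerivAt (IC I) (IC I) τ x (ContinuousLinearMap.id ℝ (E × ℝ)) := by
    have := (hasMFDerivAt_fst (I := I) (I' := 𝓘(ℝ, ℝ)) x).prodMk
      (((hasFDerivAt_id x.2).add_const (n * (2 * π))).hasMFDerivAt.comp x
        (hasMFDerivAt_snd (I := I) (I' := 𝓘(ℝ, ℝ)) x))
    exact this.congr_mfderiv (by ext1 v; rfl)
  have h3 : ∀ y, τ x = y → (mfderiv (IC I) (IT I) cv (τ x) (ce e a x) : E × EuclideanSpace ℝ (Fin 1)) =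
      mfderiv (IC I) (IT I) cv y (ce e a y) := by rintro _ rfl; cases a <;> rfl
  refine Eq.trans ?_ (h3 (sc (cv x)) (Prod.ext rfl hn.symm))
  conv_lhs => rw [h1]
  exact DFunLike.congr_fun (((ld_cv (τ x)).contMDiffAt.mdifferentiableAt (by simp)).hasMFDerivAt.comp
    x h2).mfderiv _

theorem te_fAt (F : Fr I Y κ) (z : Y × Circle) : FAt (te F.e) z := by
  rw [← cv_sc z]
  refine ⟨fun a => (vAt_rel (ld_cv _) (.of_forall (te_rel F.e a))).1 ((cyl F).sm a _), ?_⟩
  have := (pre_sp (cyl F).toPre (sc z)).map (A := dmp (IC I) (IT I) cv (sc z)) (ld_bij (ld_cv _)).2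
  rwa [show atx (te F.e) (cv (sc z)) = _ from funext fun a => (te_rel F.e a (sc z)).symm]

variable [MeasurableSpace Circle] [BorelSpace Circle]

/-- the frame of `Y × S¹` -/
def tF (F : Fr I Y κ) : Fr (IT I) (Y × Circle) (Option κ) := rFr _ (te_fAt F)

theorem tF_rel (F : Fr I Y κ) : FRel (cyl F) (tF F) cv univ :=
  ⟨isOpen_univ, fun x _ => ld_cv x, fun a x _ => te_rel F.e a x⟩

variable (I Y) in
/-- a fundamental domain -/
def ph : PartialDiffeomorph (IC I) (IT I) (Y × ℝ) (Y × Circle) ∞ where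
  toFun := cv
  invFun := sc
  source := univ ×ˢ Ioo (-π) π
  target := cv '' univ ×ˢ Ioo (-π) π
  map_source' _ h := ⟨_, h, rfl⟩
  map_target' := by rintro _ ⟨x, h, rfl⟩; rwa [sc_cv h]
  left_inv' _ := sc_cv
  right_inv' z _ := cv_sc z
  open_source := isOpen_univ.prod isOpen_Ioo
  open_target := IsLocalDiffeomorph.isOpenMap (I := IC I) (J := IT I) ld_cv _
    (isOpen_univ.prod isOpen_Ioo)
  contMDiffOn_toFun x _ := (ld_cv x).contMDiffAt.contMDiffWithinAt
  contMDiffOn_invFun := by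
    rintro _ ⟨x, h, rfl⟩
    exact (Cyl58.contMDiffAt_of_comp (ld_cv x) (contMDiffAt_id.congr_of_eventuallyEq
      (mem_of_superset ((isOpen_univ.prod isOpen_Ioo).mem_nhds h) fun _ => sc_cv))).contMDiffWithinAt

variable {D : YD I Y κ lam}

variable (D) in
def tB : Base (Y × Circle) (Option κ) lam := cmB (fun z => (z.1, 0)) D.B

variable (D) in
def tG : Geo (IT I) (Y × Circle) (Option κ) lam := ⟨tF D.F, fun a z => D.G.a a (z.1, 0)⟩

theorem sm_r : ContMDiff (IT I) (IC I) ∞ fun z : Y × Circle => (z.1, (0 : ℝ)) :=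
  contMDiff_fst.prodMk contMDiff_const

theorem tB_P (a b : Option κ) (x : Y × ℝ) : D.B.P a b x = (tB D).P a b (cv x) := by
  cases a <;> cases b <;> rfl

theorem tG_a (a : Option κ) (x : Y × ℝ) : D.G.a a x = (tG D).a a (cv x) := by cases a <;> rfl

theorem tG_ok (hD : D.OK) : (tG D).OK (tB D) := by
  refine ⟨?_, rFr_vol _ _, ⟨fun a z => ContMDiff.comp (hD.G.con.sm a) sm_r z, fun a z => hD.G.con.proj a _⟩,
    fun a z => hD.G.sk a _, fun a z => hD.G.il a _, fun a z => ?_⟩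
  · funext a b z
    rw [← cv_sc z, ← tB_P, ← hD.G.P]
    exact ((tF_rel D.F).P trivial a b).symm
  · rw [← cv_sc z, ← tG_a]
    exact (congrArg (· + _) ((tF_rel D.F).D trivial a (u := D.B.l) (.of_forall fun _ => rfl)).symm).trans
      (hD.G.par a (sc z))

/-- **`Λ + 2 ξ` is characteristic on a cylinder** -/
theorem char_cyl (hD : D.OK) {β : YC Y κ lam} (A : (cy β).Adm D.B D.G) {O K : Set (Y × ℝ)}
    {ξ : Y × ℝ → (cy β).m.A} (R : Rd D.Z (cy β).m (cy β).W O ξ) (h4 : Module.finrank ℝ E = 3)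
    (hK : IsCompact K) (hO : K ⊆ O) (hs : K ⊆ univ ×ˢ Ioo (-π) π) {a : Y × ℝ → Ext (E × ℝ)}
    (ha : RL (IC I) K a) : ∃ n : ℤ, ∫ x, (wf D.B.o (k2 D.Z a) (k2 D.Z a) x + wf D.B.o (k2 D.Z a)
      (fun a b x => fl D.B D.G a b x + 2 * fF D.Z (cy β).m (cy β).W ξ a b x) x) / (16 * π ^ 2)
        ∂D.Z.μ = 2 * (n : ℝ) := by
  classical
  borelize Circle
  let φ := ph I Y
  let c : Cfg (Y × Circle) (Option κ) lam 0 := pb Prod.fst β
  have hB : (tB D).OK (IT I) := cmB_ok sm_r hD.B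
  have hG := tG_ok hD
  have r : FRel D.G.F (tG D).F cv univ := tF_rel D.F
  have H : c.m.OK (IT I) (tB D) := cmM_ok sm_r A.ok
  have C : c.m.IsConn (tB D) (tG D) c.W := ((conn_desc (m := c.m) (W := c.W) r
    (fun a x _ => tG_a a x) (fun a b x _ => tB_P a b x) (IsConn.on A.conn univ)).mono
      fun z _ => ⟨_, trivial, cv_sc z⟩).isConn H
  have o1 : IsOpen (O ∩ φ.source) := R.op.inter φ.open_source
  let ξ' : Y × Circle → c.m.A := (cv '' (O ∩ φ.source)).indicator (ξ ∘ sc)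
  have e : ∀ x ∈ O ∩ φ.source, ∀ᶠ y in 𝓝 x, ξ y = ξ' (cv y) := fun x hx =>
    mem_of_superset (o1.mem_nhds hx) fun y hy =>
      ((indicator_of_mem (mem_image_of_mem cv hy) (ξ ∘ sc)).trans (congrArg ξ (sc_cv hy.2))).symm
  have R' : Rd (tG D).F c.m c.W (cv '' (O ∩ φ.source)) ξ' := by
    refine ⟨⟨?_, ?_, ?_, ?_⟩, φ.toOpenPartialHomeomorph.isOpen_image_of_subset_source o1
      inter_subset_right, fun x hx => indicator_of_notMem hx _⟩ <;> rintro _ ⟨x, hx, rfl⟩
    · exact Cyl58.contMDiffAt_of_comp (ld_cv x) ((R.sm x hx.1).congr_of_eventuallyEq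
        ((e x hx).mono fun _ => Eq.symm))
    · exact (e x hx).self_of_nhds ▸ R.mem x hx.1
    · exact (e x hx).self_of_nhds ▸ R.sq x hx.1
    · exact fun a => (r.nab trivial a rfl (e x hx)).symm.trans (R.par x hx.1 a)
  have h4' : Module.finrank ℝ (E × EuclideanSpace ℝ (Fin 1)) = 4 := by simp [h4]
  have ok := Num57.OK.of_base h4' hB hG
  have cs := ha.cs hK
  have hc := (hK.image_of_continuousOn (φ.contMDiffOn_toFun.continuousOn.mono hs)).isClosed
  obtain ⟨κ', _, L, p₀, h1, p1, p2, h2, hL⟩ := ha.psh φ hK hs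
  obtain ⟨n, hn⟩ := R'.char hB hG H C h4' (li_ln ok h1) (li_ln ok (on_const p1 p2 _)) hc
    (image_mono (subset_inter hO hs)) fun x hx => ⟨congrArg Line51.rl (h2 x hx).1, fun a => by
      rw [Line51.A_congr (L := ⟨fun _ => p₀, 0⟩) (mem_of_superset (hc.isOpen_compl.mem_nhds hx)
        fun y hy => (h2 y hy).1) (h2 x hx).2]
      exact (congrArg Line51.rl ((Line51.Ln.cm_apply _).trans (by
        erw [Line51.dm_const]; simp [Num57.e1]))).trans (map_zero _)⟩
  refine ⟨n, Eq.trans ?_ hn⟩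
  have k : ∀ x ∈ φ.source, ∀ b b', k2 (tG D).F (L.F (IT I)) b b' (cv x) = k2 D.Z a b b' x :=
    fun x hx b b' => by
      rw [← k2_rel r trivial, ← hL, k2, k2]
      exact congrArg (Num57.e2 · _ _) (Dr59.pm_psh φ hx a)
  rw [← setIntegral_eq_integral_of_forall_compl_eq_zero (s := φ.source) fun x hx => by
      simp only [wf, c4, k2, cs.eq_zero fun k => hx (hs k), Num57.e2_zero, zero_mul,
        mul_zero, Finset.sum_const_zero, add_zero, zero_div],
    ← setIntegral_eq_integral_of_forall_compl_eq_zero (s := φ.target) fun x hx => by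
      simp only [wf, c4, k2, ← hL, Dr59.psh, indicator_of_notMem hx, Num57.e2_zero, zero_mul,
        mul_zero, Finset.sum_const_zero, add_zero, zero_div]]
  refine (setIntegral_congr_fun φ.open_source.measurableSet fun x hx => ?_).trans
    (Nka63.setIntegral_comp (FRel.iso (φ := φ.toOpenPartialHomeomorph)
      (r.mono φ.open_source (subset_univ _)) hD.G.vol hG.vol) _)
  have k1 : ∀ b b', fl (tB D) (tG D) b b' (cv x) = fl D.B D.G b b' x := fun b b' => by
    simp only [fL, ← r.curv trivial (A := D.G.a) fun a => .of_forall (tG_a a)]; rfl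
  change _ = (wf _ _ _ (cv x) + wf _ _ _ (cv x)) / _
  by_cases h : x ∈ K
  · simp only [wf, k x hx, k1, fF, ← (e x ⟨hO h, hx⟩).self_of_nhds, ← r.Fg trivial]
    rfl
  · simp only [wf, k x hx]
    simp only [c4, k2, cs.eq_zero h, Num57.e2_zero, zero_mul, mul_zero, Finset.sum_const_zero]

end Crest.Agent.X212.Nr4
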